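import Vale.Agent.P269.G2I.H984.TopOne

/-!
# [G2] only `L_1`, modulo a power of the Novikov variable: the induction on the number of
primitive insertions
-/

set_option autoImplicit false

namespace Vale.Agent.P269.LN.H598

open Vale.Agent.P269.CI Vale.Agent.P269.G1 Vale.Agent.P269.G1.H984 Vale.Agent.P269.G2.H333
open Vale.Agent.P269.G2.H984 (RF rhoc dP)

theorem map_pderiv {σ A B : Type*} [CommRing A] [CommRing B] (π : A →+* B) (i : σ)
    (f : MvPowerSeries σ A) : MvPowerSeries.map π (MvPowerSeries.pderiv A i f) =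
      MvPowerSeries.pderiv B i (MvPowerSeries.map π f) := by
  classical
  ext x
  rw [MvPowerSeries.coeff_map, MvPowerSeries.coeff_pderiv, MvPowerSeries.coeff_pderiv,
    MvPowerSeries.coeff_map, map_mul, map_add, map_natCast, map_one]

section gen

variable {ι κ A S : Type*} [CommRing A] [CommRing S]

/-- bounded induction over the order of vanishing -/
theorem all_zero_le' (ev : MvPowerSeries (ι ⊕ κ) A →+* S) {N : Type*}
    (a : N → MvPowerSeries (ι ⊕ κ) A) (N0 : ℕ)
    (h : ∀ w : List κ, w.length ≤ N0 →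
      (∀ n, Van (fun v => DD (Sum.inr v)) ev w.length (a n)) →
      ∀ n, ev (dl (fun v => DD (Sum.inr v)) w (a n)) = 0) (w : List κ) (hw : w.length ≤ N0)
    (n : N) : ev (dl (fun v => DD (Sum.inr v)) w (a n)) = 0 := by
  have main : ∀ (k : ℕ), k ≤ N0 + 1 → ∀ (n : N), Van (fun v => DD (Sum.inr v)) ev k (a n) := by
    intro k
    induction k with
    | zero =>
      intro _ n u hu
      omega
    | succ k ih =>
      intro hk n u hu
      rcases Nat.lt_succ_iff_lt_or_eq.1 hu with h1 | h1
      · exact ih (by omega) n u h1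
      · exact h u (by omega) (fun m => h1 ▸ ih (by omega) m) n
  exact main (w.length + 1) (by omega) n w (Nat.lt_succ_self _)

end gen

variable {X : CompleteIntersection} {F : ℕ → ℕ → List (Ins X) → ℂ}

variable (hF : IsGW X F) (h1 : IsGenusOne F)

variable {K' : Type*} [CommRing K'] [Algebra ℚ K'] (π : PowerSeries ℂ →+* K')

/-- a function of the ambient coordinates, with coefficients in `K'`, whose derivatives along
the powers of the Euler field are multiples of it vanishes if it vanishes at the origin -/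
theorem one_zero' (hi : index X ≠ 0) (f : MvPowerSeries (Fin (X.dim + 1)) K')
    (g : ℕ → MvPowerSeries (Fin (X.dim + 1)) K')
    (h : ∀ m, ∑ i, MvPowerSeries.map π ((Eu hF h1 ^ m : AA hF h1) i) *
      MvPowerSeries.pderiv K' i f = g m * f)
    (h0 : MvPowerSeries.constantCoeff f = 0) : f = 0 := by
  obtain ⟨b, hb⟩ := pow_basis hF h1 hi
  set c : Fin (X.dim + 1) → Fin (X.dim + 1) → RR X := fun i k =>
    b.repr (QA.bas (consts hF h1) i) k with hc
  have hcoord : ∀ i j : Fin (X.dim + 1), (if j = i then (1 : RR X) else 0) =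
      ∑ k, c i k * (Eu hF h1 ^ (k : ℕ) : AA hF h1) j := by
    intro i j
    have e1 : (QA.bas (consts hF h1) i : AA hF h1) = ∑ k, c i k • (Eu hF h1 ^ (k : ℕ)) := by
      conv_lhs => rw [← b.sum_repr (QA.bas (consts hF h1) i)]
      exact Finset.sum_congr rfl fun k _ => by rw [hb k]
    have e2 := congrArg (fun z : AA hF h1 => z j) e1
    have e3 : (∑ k, c i k • (Eu hF h1 ^ (k : ℕ)) : AA hF h1) j =
        ∑ k, c i k * (Eu hF h1 ^ (k : ℕ) : AA hF h1) j :=
      Finset.sum_apply (M := fun _ : Fin (X.dim + 1) => RR X) j Finset.univ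
        (fun k => (c i k • (Eu hF h1 ^ (k : ℕ)) : AA hF h1))
    rw [← e3, ← e1, QA.bas_apply]
  refine ode_zero (n := X.dim + 1) (K := K') (N := 1) (fun _ => f) (fun _ => h0)
    (fun i _ _ => ∑ k : Fin (X.dim + 1), MvPowerSeries.map π (c i k) * g k) ?_ 0
  intro i _
  rw [Finset.univ_unique, Finset.sum_singleton, Finset.sum_mul]
  have e4 : MvPowerSeries.pderiv K' i f = ∑ j, MvPowerSeries.map π
      (if j = i then (1 : RR X) else 0) * MvPowerSeries.pderiv K' j f := by
    rw [Finset.sum_eq_single i]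
    · rw [if_pos rfl, map_one, one_mul]
    · intro j _ hj
      rw [if_neg hj, map_zero, zero_mul]
    · intro h; exact absurd (Finset.mem_univ i) h
  rw [e4]
  simp only [hcoord, map_sum, map_mul, Finset.sum_mul]
  rw [Finset.sum_comm]
  refine Finset.sum_congr rfl fun k _ => ?_
  rw [mul_assoc, ← h, Finset.mul_sum]
  exact Finset.sum_congr rfl fun j _ => by ring

/-- the evaluation: primitive coordinates zero, coefficients in `K'` -/
noncomputable def evK : RF X →+* MvPowerSeries (Fin (X.dim + 1)) K' :=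
  (MvPowerSeries.map π).comp ev0

theorem evK_apply (f : RF X) : evK π f = MvPowerSeries.map π (ev0 f) := rfl

theorem evK_pderiv (i : Fin (X.dim + 1)) (f : RF X) :
    evK π (DD (A := PowerSeries ℂ) (Sum.inl i : Ix X) f) =
      MvPowerSeries.pderiv K' i (evK π f) := by
  rw [evK_apply, evK_apply, ev0_DD, map_pderiv]

theorem constantCoeff_evK (f : RF X) : MvPowerSeries.constantCoeff (evK π f) =
    π (MvPowerSeries.constantCoeff f) := by
  rw [evK_apply, MvPowerSeries.constantCoeff_map, constantCoeff_ev0]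

/-- **[G2, top, only `L_1`]** with coefficients in `K'` -/
theorem top_one' (hi : index X ≠ 0) (N0 : ℕ) (V : ℕ → Ix X → RF X)
    (W : ℕ → X.Prim → Ix X → RF X) (a : ℕ → RF X)
    (hV : ∀ m i, ev0 (V m (Sum.inl i)) = (Eu hF h1 ^ m : AA hF h1) i)
    (hV0 : ∀ m b, ev0 (V m (Sum.inr b)) = 0)
    (hV1 : ∀ m v b, ev0 (MvPowerSeries.pderiv (PowerSeries ℂ) (Sum.inr v) (V m (Sum.inr b))) =
      if v = b then rhoc hF h1 m v else 0)
    (hcl : ∀ m, ∑ b, V m b * MvPowerSeries.pderiv (PowerSeries ℂ) b (a 1) = a m)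
    (hW : ∀ m v b, ev0 (W m v (Sum.inr b)) =
      if v = b then (lam hF h1 (Eu hF h1)) v ^ m else 0)
    (hX : ∀ n v, MvPowerSeries.pderiv (PowerSeries ℂ) (Sum.inr v : Ix X) (a n) =
      (n : RF X) * ∑ b, W (n - 1) v b * MvPowerSeries.pderiv (PowerSeries ℂ) b (a 1))
    (h0 : ∀ n, evK π (a n) = 0)
    (h3 : ∀ w : List X.Prim, w ≠ [] → w.length ≤ N0 →
      π (MvPowerSeries.constantCoeff (dP w (a 1))) = 0) (w : List X.Prim) (hw : w.length ≤ N0)
    (n : ℕ) : evK π (dP w (a n)) = 0 := by
  refine all_zero_le' (evK π) a N0 ?_ w hw n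
  intro w hw hvan n
  rcases w with _ | ⟨v, w'⟩
  · exact h0 n
  have hder : ∀ i : Ix X, IsDer (DD (A := PowerSeries ℂ) i) := fun i => isDer_DD i
  have hderv : ∀ v : X.Prim, IsDer (DD (A := PowerSeries ℂ) (Sum.inr v : Ix X)) :=
    fun v => hder (Sum.inr v)
  set l := MvPowerSeries.map π ((lam hF h1 (Eu hF h1)) v) with hl
  -- the leading terms are multiples of the one of `a 1`
  have key : ∀ n, evK π (dl (fun v : X.Prim => DD (A := PowerSeries ℂ) (Sum.inr v : Ix X))
      (v :: w') (a n)) = (n : MvPowerSeries (Fin (X.dim + 1)) K') * l ^ (n - 1) *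
      evK π (dl (fun v : X.Prim => DD (A := PowerSeries ℂ) (Sum.inr v : Ix X)) (v :: w')
        (a 1)) := by
    intro n
    have hv1 : Van (fun v : X.Prim => DD (A := PowerSeries ℂ) (Sum.inr v : Ix X)) (evK π)
        (w'.length + 1) (a 1) := hvan 1
    have e0 : DD (A := PowerSeries ℂ) (Sum.inr v : Ix X) (a n) =
        (n : RF X) * ∑ b, W (n - 1) v b * DD (A := PowerSeries ℂ) b (a 1) := hX n v
    have hcomm : ∀ (i : Fin (X.dim + 1)) (u : List X.Prim) (f : RF X),
        dl (fun v : X.Prim => DD (A := PowerSeries ℂ) (Sum.inr v : Ix X)) u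
          (DD (A := PowerSeries ℂ) (Sum.inl i : Ix X) f) =
        DD (A := PowerSeries ℂ) (Sum.inl i : Ix X)
          (dl (fun v : X.Prim => DD (A := PowerSeries ℂ) (Sum.inr v : Ix X)) u f) := by
      intro i u
      induction u with
      | nil => intro f; rfl
      | cons x u ih => intro f; rw [dl_cons, dl_cons, DD_comm, ih]
    have evan : ∀ b : Ix X, Van (fun v : X.Prim => DD (A := PowerSeries ℂ) (Sum.inr v : Ix X))
        (evK π) w'.length (DD (A := PowerSeries ℂ) b (a 1)) := by
      intro b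
      rcases b with i | b
      · intro u hu
        rw [hcomm, evK_pderiv, hv1 u (by omega), map_zero]
      · exact hv1.deriv b
    have hpad : ∀ i : Fin (X.dim + 1),
        evK π (dl (fun v : X.Prim => DD (A := PowerSeries ℂ) (Sum.inr v : Ix X)) w'
          (DD (A := PowerSeries ℂ) (Sum.inl i : Ix X) (a 1))) = 0 := by
      intro i
      rw [hcomm, evK_pderiv, hv1 w' (Nat.lt_succ_self _), map_zero]
    have e1 : evK π (dl (fun v : X.Prim => DD (A := PowerSeries ℂ) (Sum.inr v : Ix X)) w'
        (∑ b, W (n - 1) v b * DD (A := PowerSeries ℂ) b (a 1))) = l ^ (n - 1) *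
        evK π (dl (fun v : X.Prim => DD (A := PowerSeries ℂ) (Sum.inr v : Ix X)) (v :: w')
          (a 1)) := by
      rw [dl_sum hderv, map_sum]
      have e2 : ∀ b : Ix X, evK π (dl (fun v : X.Prim => DD (A := PowerSeries ℂ)
          (Sum.inr v : Ix X)) w' (W (n - 1) v b * DD (A := PowerSeries ℂ) b (a 1))) =
          evK π (W (n - 1) v b) * evK π (dl (fun v : X.Prim => DD (A := PowerSeries ℂ)
            (Sum.inr v : Ix X)) w' (DD (A := PowerSeries ℂ) b (a 1))) := fun b =>
        dl_mul_of_van hderv (evan b) _ w' le_rfl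
      rw [Finset.sum_congr rfl fun b _ => e2 b, Fintype.sum_sum_type,
        Finset.sum_eq_zero fun i _ => by rw [hpad i, mul_zero], zero_add,
        Finset.sum_eq_single v]
      · rw [evK_apply π (W _ _ _), hW, if_pos rfl, map_pow]
        rfl
      · intro b _ hb
        rw [evK_apply π (W _ _ _), hW, if_neg (Ne.symm hb), map_zero, zero_mul]
      · intro h; exact absurd (Finset.mem_univ v) h
    have e3 : evK π (dl (fun v : X.Prim => DD (A := PowerSeries ℂ) (Sum.inr v : Ix X)) w'
        ((n : RF X) * ∑ b, W (n - 1) v b * DD (A := PowerSeries ℂ) b (a 1))) =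
        (n : MvPowerSeries (Fin (X.dim + 1)) K') *
        evK π (dl (fun v : X.Prim => DD (A := PowerSeries ℂ) (Sum.inr v : Ix X)) w'
          (∑ b, W (n - 1) v b * DD (A := PowerSeries ℂ) b (a 1))) := by
      have h := congrArg (evK π) (Vale.Agent.P269.G2.H984.dP_nat w' n
        (∑ b, W (n - 1) v b * DD (A := PowerSeries ℂ) b (a 1)))
      rw [map_mul, map_natCast] at h
      exact h
    rw [dl_cons, e0, e3, e1, mul_assoc]
  have hone : evK π (dl (fun v : X.Prim => DD (A := PowerSeries ℂ) (Sum.inr v : Ix X))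
      (v :: w') (a 1)) = 0 := by
    refine one_zero' hF h1 π hi _ (fun m => (m : MvPowerSeries (Fin (X.dim + 1)) K') *
      l ^ (m - 1) - ((v :: w').map fun v => MvPowerSeries.map π (rhoc hF h1 m v)).sum) ?_ ?_
    · intro m
      have e1 := dl_field DD (evK π) (fun i f => MvPowerSeries.pderiv K' i f)
        isDer_DD DD_comm (evK_pderiv π) (fun i => map_zero _) (V m)
        (fun v => MvPowerSeries.map π (rhoc hF h1 m v))
        (fun b => by rw [evK_apply, hV0, map_zero])
        (fun v b => by
          rw [evK_apply, DD_apply, hV1]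
          split_ifs
          · rfl
          · rw [map_zero]) (a 1) (v :: w') (hvan 1)
      have hcl' : ∑ i, V m i * DD (A := PowerSeries ℂ) i (a 1) = a m := hcl m
      rw [hcl', key m] at e1
      rw [sub_mul, e1]
      have e2 : ∀ i, evK π (V m (Sum.inl i)) =
          MvPowerSeries.map π ((Eu hF h1 ^ m : AA hF h1) i) := fun i => by
        rw [evK_apply, hV]
      simp only [e2]
      ring
    · rw [constantCoeff_evK]
      exact h3 (v :: w') (by simp) hw
  rw [key n, hone, mul_zero]

end Vale.Agent.P269.LN.H598
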