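import Vale.Agent.P269.G2I.H984.SmallOne
import Vale.Agent.P269.LN.H598.GrTop

/-!
# [G2] the small phase space modulo a power of the Novikov variable: only `L_1` with primitive
insertions is an obstruction
-/

set_option autoImplicit false

namespace Vale.Agent.P269.LN.H598

open Vale.Agent.P269.CI Vale.Agent.P269.G2
open Vale.Agent.P269.G1 (RR ser cst lamc Eu lam AA cq lst)
open Vale.Agent.P269.G2.H333 (ev0 isDer_DD)
open Vale.Agent.P269.G2.H984 (RF rhoc dP aM aM_vir dP_vir aM_closure natCast_cancel der_bas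
  ev0_pow_mul)

variable {X : CompleteIntersection} {F : ℕ → ℕ → List (Ins X) → ℂ}

variable {K' : Type*} [CommRing K'] [Algebra ℚ K'] (π : PowerSeries ℂ →+* K')

theorem map_smul_mk (q : ℚ) (f : PowerSeries ℂ) : π (q • f) = q • π f := map_rat_smul π q f

section

variable (D : ℕ) (hπ : ∀ f : PowerSeries ℂ, π f = 0 ↔ ∀ d ≤ D, PowerSeries.coeff d f = 0)

include hπ

theorem map_ser_zero (A : ℕ → List (Ins X) → ℂ)
    (h : ∀ d ≤ D, ∀ L : List (Fin (X.dim + 1)), A d (L.map (hpow X)) = 0) :
    MvPowerSeries.map π (ser (X := X) A) = 0 := by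
  ext α
  rw [MvPowerSeries.coeff_map, map_zero]
  change π (((∏ i, (α i).factorial : ℕ) : ℚ)⁻¹ •
    (PowerSeries.mk fun d => A d ((lst α).map (hpow X)))) = 0
  have h2 : π (PowerSeries.mk fun d => A d ((lst α).map (hpow X))) = 0 := by
    rw [hπ]
    intro d hd
    rw [PowerSeries.coeff_mk]
    exact h d hd _
  rw [map_smul_mk, h2, smul_zero]

theorem of_map_ser_zero (A : ℕ → List (Ins X) → ℂ)
    (h : MvPowerSeries.map π (ser (X := X) A) = 0) (α : Fin (X.dim + 1) →₀ ℕ) (d : ℕ)
    (hd : d ≤ D) : A d ((lst α).map (hpow X)) = 0 := by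
  have h1 := congrArg (MvPowerSeries.coeff α) h
  rw [MvPowerSeries.coeff_map, map_zero] at h1
  change π (((∏ i, (α i).factorial : ℕ) : ℚ)⁻¹ •
    (PowerSeries.mk fun d => A d ((lst α).map (hpow X)))) = 0 at h1
  rw [map_smul_mk] at h1
  have hq : ((∏ i, (α i).factorial : ℕ) : ℚ) ≠ 0 :=
    Nat.cast_ne_zero.2 (Finset.prod_ne_zero_iff.2 fun i _ => Nat.factorial_ne_zero _)
  have h3 := congrArg (fun z => ((∏ i, (α i).factorial : ℕ) : ℚ) • z) h1
  simp only [smul_smul, mul_inv_cancel₀ hq, one_smul, smul_zero] at h3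
  have h4 := (hπ _).1 h3 d hd
  rwa [PowerSeries.coeff_mk] at h4

/-- `a_n` at the zeros of the primitive coordinates -/
theorem evK_aM (hF : IsGW X F) (he : Even X.dim) (h1 : IsGenusOneFull F) (hX : 3 ≤ X.dim)
    (h0 : ∀ k d (L : List (Fin (X.dim + 1))), d ≤ D →
      virasoro X F (k + 1) 1 d (L.map (hpow X)) = 0)
    (n : ℕ) : evK π (phi X (aM hF he n)) = 0 := by
  have h := congrArg (evK π) (aM_vir hF he h1 hX n)
  rw [map_add, map_mul, map_mul, map_natCast, map_natCast, map_zero, evK_apply π (phi X (sr _ _)),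
    ev0_phi_sr _ (symF_vir (E0 X) hF he n),
    map_ser_zero π D hπ _ (fun d hd L => h0 n d L hd), mul_zero, add_zero] at h
  exact natCast_cancel (n + 1) (Nat.succ_ne_zero n) _ h

/-- the derivatives of `a_n` at the origin -/
theorem origin_aM' (hF : IsGW X F) (he : Even X.dim) (h1 : IsGenusOneFull F) (hX : 3 ≤ X.dim)
    (n : ℕ) (w : List X.Prim)
    (h : ∀ d ≤ D, virasoro X F (n + 1) 1 d (w.map fun v => (Sum.inr v, 0)) = 0) :
    π (MvPowerSeries.constantCoeff (dP w (phi X (aM hF he n)))) = 0 := by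
  have h2 := congrArg (fun f => π (MvPowerSeries.constantCoeff f)) (dP_vir hF he h1 hX n w)
  simp only [map_add, map_mul, map_natCast, map_zero] at h2
  rw [origin_sr _ (symF_vir (E0 X) hF he n)] at h2
  have h3 : π (PowerSeries.mk fun d =>
      virasoro X F (n + 1) 1 d (w.map fun v => (Sum.inr v, 0))) = 0 := by
    rw [hπ]
    intro d hd
    rw [PowerSeries.coeff_mk, h d hd]
  rw [h3, mul_zero, add_zero] at h2
  exact natCast_cancel (n + 1) (Nat.succ_ne_zero n) _ h2

/-- from the derivatives in primitive directions to the lists -/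
theorem list_zero' (A : ℕ → List (Ins X) → ℂ) (hA : SymF (E0 X) A) (N0 : ℕ)
    (h : ∀ w : List X.Prim, w.length ≤ N0 → evK π (dP w (phi X (sr (E0 X) A))) = 0)
    (d : ℕ) (hd : d ≤ D) (L : List (Ix X)) (hL : (L.countP fun a => a.isRight) ≤ N0) :
    A d (L.map fun a => (a, 0)) = 0 := by
  have hsh : ∀ (B : ℕ → List (Ins X) → ℂ) (_ : SymF (E0 X) B) (w : List X.Prim),
      SymF (E0 X) fun d L => B d (w.map (fun v => ((Sum.inr v, 0) : Ins X)) ++ L) := by
    intro B hB w d L M hLM
    have e : ∀ L : List (Fin (nx X)), w.map (fun v => ((Sum.inr v, 0) : Ins X)) ++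
        L.map (E0 X).e = (w.map (fun v => (E0 X).i0 (Sum.inr v)) ++ L).map (E0 X).e := by
      intro L
      rw [List.map_append, List.map_map]
      congr 1
      exact List.map_congr_left fun v _ => ((E0 X).e_i0 (Sum.inr v)).symm
    change B d (_ ++ _) = B d (_ ++ _)
    rw [e, e]
    exact hB d _ _ (hLM.append_left _)
  set B : ℕ → List (Ins X) → ℂ := fun d L => if d ≤ D then A d L else 0 with hB
  have hBs : SymF (E0 X) B := by
    intro d L M hLM
    change (if d ≤ D then _ else _) = (if d ≤ D then _ else _)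
    rw [hA d L M hLM]
  have h2 := list_zero B hBs N0 (fun w hw => ?_) d L hL
  · change (if d ≤ D then A d _ else 0) = 0 at h2
    rwa [if_pos hd] at h2
  · have h3 := h w hw
    rw [H861.dP_sr w A hA, evK_apply, ev0_phi_sr _ (hsh A hA w)] at h3
    have h4 := of_map_ser_zero π D hπ _ h3
    rw [H861.dP_sr w B hBs, ev0_phi_sr _ (hsh B hBs w)]
    ext α : 1
    rw [map_zero]
    change ((∏ i, (α i).factorial : ℕ) : ℚ)⁻¹ • (PowerSeries.mk fun d =>
      B d (w.map (fun v => ((Sum.inr v, 0) : Ins X)) ++ (lst α).map (hpow X))) = 0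
    have h5 : (PowerSeries.mk fun d =>
        B d (w.map (fun v => ((Sum.inr v, 0) : Ins X)) ++ (lst α).map (hpow X))) = 0 := by
      ext e
      rw [PowerSeries.coeff_mk, map_zero]
      change (if e ≤ D then A e _ else 0) = 0
      split_ifs with he
      · exact h4 α e he
      · rfl
    rw [h5, smul_zero]

/-- the constraints of degree at most `D` on the full small phase space with at most `N0`
primitive insertions follow from the ambient ones and from `L_1` at the origin with purely
primitive insertions -/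
theorem small_one' (hF : IsGW X F) (he : Even X.dim) (h1 : IsGenusOneFull F)
    (hX : 3 ≤ X.dim) (hi : index X ≠ 0)
    (hY : ∀ (Y : AM hF he) (n : ℕ), (frob hF he).der Y (aM hF he n) =
      (n : RM X) * (frob hF he).der (EM hF he ^ (n - 1) * Y) (aM hF he 1))
    (h0 : ∀ k d (L : List (Fin (X.dim + 1))), d ≤ D →
      virasoro X F (k + 1) 1 d (L.map (hpow X)) = 0)
    (N0 : ℕ) (h3 : ∀ w : List X.Prim, w ≠ [] → w.length ≤ N0 → ∀ d ≤ D,
      virasoro X F 2 1 d (w.map fun v => (Sum.inr v, 0)) = 0)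
    (k d : ℕ) (hd : d ≤ D) (L : List (Ix X)) (hL : (L.countP fun a => a.isRight) ≤ N0) :
    virasoro X F (k + 1) 1 d (L.map fun a => (a, 0)) = 0 := by
  have h1' := h1.toOne
  have main : ∀ (w : List X.Prim), w.length ≤ N0 → ∀ n,
      evK π (dP w (phi X (aM hF he n))) = 0 := by
    refine top_one' hF h1' π hi N0
      (fun m b => phi X ((EM hF he ^ m : AM hF he) b))
      (fun m v b => phi X ((EM hF he ^ m * QA.bas (consts hF he) (Sum.inr v) : AM hF he) b))
      (fun n => phi X (aM hF he n))
      (fun m i => ev0_pow_inl hF he h1' m i) (fun m b => ev0_pow_inr hF he h1' m b)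
      (fun m v b => ev0_pd_pow hF he h1' m v b) ?_
      (fun m v b => ev0_pow_mul hF he h1' m v b) ?_ ?_ ?_
    · intro m
      have h := congrArg (phi X) (aM_closure hF he h1 hX m 1)
      rw [map_sum, map_mul, map_natCast, Nat.cast_one, one_mul, Nat.add_sub_cancel] at h
      rw [← h]
      refine Finset.sum_congr rfl fun b _ => ?_
      rw [map_mul, phi_pd]
    · intro n v
      have h := congrArg (phi X) (hY (QA.bas (consts hF he) (Sum.inr v)) n)
      rw [der_bas, phi_pd, map_mul, map_natCast] at h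
      rw [h]
      congr 1
      change phi X (∑ b, (EM hF he ^ (n - 1) * QA.bas (consts hF he) (Sum.inr v) : AM hF he) b *
        pd b (aM hF he 1)) = _
      rw [map_sum]
      refine Finset.sum_congr rfl fun b _ => ?_
      rw [map_mul, phi_pd]
    · exact evK_aM π D hπ hF he h1 hX h0
    · intro w hw0 hwN
      exact origin_aM' π D hπ hF he h1 hX 1 w fun d hd => h3 w hw0 hwN d hd
  refine list_zero' π D hπ (fun d L => virasoro X F (k + 1) 1 d L) (symF_vir (E0 X) hF he k) N0
    ?_ d hd L hL
  intro w hw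
  have h := congrArg (evK π) (dP_vir hF he h1 hX k w)
  rw [map_add, map_mul, map_mul, map_natCast, map_natCast, map_zero, main w hw k, mul_zero,
    zero_add] at h
  exact natCast_cancel 2 two_ne_zero _ h

end

end Vale.Agent.P269.LN.H598
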