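import Vale.Agent.P269.G2I.T.H302_DF
import Vale.Agent.P269.LN.H598.GrSmall

/-!
# [G2-D] descendants, modulo a power of the Novikov variable
-/

set_option autoImplicit false

namespace Vale.Agent.P269.LN.H598

open Vale.Agent.P269.CI Vale.Agent.P269.G2 Vale.Agent.P269.G2.H302
open Vale.Agent.P269.G1 (lst)

variable {X : CompleteIntersection} {F : ℕ → ℕ → List (Ins X) → ℂ}

variable {K' : Type*} [CommRing K'] [Algebra ℚ K'] (π : PowerSeries ℂ →+* K')

/-- **[DF]** with degrees at most `D` -/
theorem vir_descend' (D : ℕ)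
    (hπ : ∀ f : PowerSeries ℂ, π f = 0 ↔ ∀ d ≤ D, PowerSeries.coeff d f = 0)
    (hF : IsGW X F) (he : Even X.dim) (h1 : Trr1 F) (hm : Mono1 F) (k N0 : ℕ)
    (h : ∀ d ≤ D, ∀ L : List (Ix X), (L.countP fun a => a.isRight) ≤ N0 →
      virasoro X F (k + 1) 1 d (L.map fun a => (a, 0)) = 0)
    (d : ℕ) (hd : d ≤ D) (L : List (Ins X)) (hL : (L.countP fun x => x.1.isRight) ≤ N0) :
    virasoro X F (k + 1) 1 d L = 0 := by
  obtain ⟨M, hM⟩ := exists_bound L
  set E := famAll X M with hE
  obtain ⟨L', rfl⟩ := exists_map E.e L fun x hx => famAll_e M x (hM x hx)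
  rw [List.countP_map] at hL
  have h0 : ∀ α : Fin (Fintype.card (Ix X × Fin (M + 1))) →₀ ℕ,
      ∑ i with (E.e i).1.isRight = true, α i ≤ N0 →
      MvPowerSeries.coeff α (MvPowerSeries.map π
        (sr E (fun d L => virasoro X F (k + 1) 1 d L))) = 0 := by
    refine descend_le (fun i => (E.e i).2) E.i0 (fun b => by rw [E.e_i0])
      (fun i => (E.e i).1.isRight = true) N0 (fun i b => MvPowerSeries.map π (wB E F i 0 b))
      _ (fun i => ?_) (fun i b hi hb γ hγ => ?_) fun α hα hα2 => ?_
    · rw [← map_pderiv, sm_vir E hF he h1 k i, map_sum]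
      exact Finset.sum_congr rfl fun b _ => by rw [map_mul, map_pderiv]
    · rw [MvPowerSeries.coeff_map, hw E hF hm i b hi hb γ hγ, map_zero]
    · rw [MvPowerSeries.coeff_map, coeff_sr]
      have e1 : (lst α).map E.e = ((lst α).map fun i => (E.e i).1).map fun a => (a, 0) := by
        rw [List.map_map]
        refine List.map_congr_left fun i hi => ?_
        have h2 : (E.e i).2 = 0 := by
          by_contra h3
          exact mem_lst hi (hα i (Nat.pos_of_ne_zero h3))
        exact Prod.ext rfl h2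
      have e3 : (((lst α).map fun i => (E.e i).1).countP fun a => a.isRight) ≤ N0 := by
        rw [List.countP_map]
        refine le_trans (le_of_eq ?_) hα2
        rw [← sum_count]
        exact Finset.sum_congr rfl fun i _ => count_lst α i
      have e2 : π (PowerSeries.mk fun d => virasoro X F (k + 1) 1 d ((lst α).map E.e)) = 0 := by
        rw [hπ]
        intro d hd
        rw [PowerSeries.coeff_mk, e1, h d hd _ e3]
      rw [map_smul_mk, e2, smul_zero]
  set α : Fin (Fintype.card (Ix X × Fin (M + 1))) →₀ ℕ :=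
    Finsupp.equivFunOnFinite.symm fun j => L'.count j with hα
  have hperm : L'.Perm (lst α) := by
    rw [List.perm_iff_count]
    intro j
    rw [count_lst]
    rfl
  have hN : ∑ i with (E.e i).1.isRight = true, α i ≤ N0 := by
    refine le_trans (le_of_eq ?_) hL
    rw [← sum_count]
    rfl
  have h2 := h0 α hN
  rw [MvPowerSeries.coeff_map, coeff_sr, map_smul_mk] at h2
  have hq : ((∏ i, (α i).factorial : ℕ) : ℚ) ≠ 0 :=
    Nat.cast_ne_zero.2 (Finset.prod_ne_zero_iff.2 fun i _ => Nat.factorial_ne_zero _)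
  have h3 := congrArg (fun z => ((∏ i, (α i).factorial : ℕ) : ℚ) • z) h2
  simp only [smul_smul, mul_inv_cancel₀ hq, one_smul, smul_zero] at h3
  have h4 := (hπ _).1 h3 d hd
  rw [PowerSeries.coeff_mk] at h4
  rw [← h4]
  exact symF_vir E hF he k d L' (lst α) hperm

end Vale.Agent.P269.LN.H598
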