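import Vale.Agent.P269.H597G2.One
import Vale.Agent.P269.LN.H598.GrDesc
import Vale.Agent.P269.LN.H980.Trunc

/-!
# Genus-one Virasoro constraints, even dimension, degrees at most `D`
-/

set_option autoImplicit false

namespace Vale.Agent.P269.LN

open Vale.Agent.P269.CI Vale.Agent.P269.G2

variable {X : CompleteIntersection} {F : ℕ → ℕ → List (Ins X) → ℂ}

/-- The constraints of genus one and degrees at most `D` with at most `N0` primitive insertions
follow from the ambient ones and from `L_1` with purely primitive insertions, in the same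
degrees. -/
theorem vir_even_graded (hF : IsGW X F) (he : Even X.dim) (h1 : IsGenusOneFull F)
    (hX : 3 ≤ X.dim) (hi : index X ≠ 0) (D : ℕ)
    (h0 : ∀ k d (L : List (Fin (X.dim + 1))), d ≤ D →
      virasoro X F (k + 1) 1 d (L.map (hpow X)) = 0)
    (N0 : ℕ) (h3 : ∀ w : List X.Prim, w ≠ [] → w.length ≤ N0 → ∀ d ≤ D,
      virasoro X F 2 1 d (w.map fun v => (Sum.inr v, 0)) = 0)
    (K d : ℕ) (hd : d ≤ D) (L : List (Ins X)) (hL : (L.countP fun x => x.1.isRight) ≤ N0) :
    virasoro X F K 1 d L = 0 := by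
  cases K with
  | zero => exact Vale.Agent.P269.H597.virasoro_zero hF 1 d L
  | succ k =>
    exact H598.vir_descend' (H980.tr D) D (fun _ => H980.tr_eq_zero_iff) hF he h1.trr1
      (h1.mono1 0) k N0 (fun d hd L hL => H598.small_one' (H980.tr D) D
        (fun _ => H980.tr_eq_zero_iff) hF he h1 hX hi
        (Vale.Agent.P269.H597G2.hY hF he h1 hX) h0 N0 h3 k d hd L hL) d hd L hL

/-- The numbers `L_1` with `2 n` primitive insertions live in the degrees `e` with
`ν e = 1 + n (r - 2)`. -/
theorem number_graded (hF : IsGW X F) (h1 : IsGenusOneFull F) (hm : 3 ≤ excess X) (N0 D : ℕ)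
    (hn : ∀ n e : ℕ, 1 ≤ n → 2 * n ≤ N0 → e ≤ D → index X * e ≠ 1 + n * ((X.dim : ℤ) - 2))
    (w : List X.Prim) (hw0 : w ≠ []) (hw : w.length ≤ N0) (d : ℕ) (hd : d ≤ D) :
    virasoro X F 2 1 d (w.map fun v => (Sum.inr v, 0)) = 0 := by
  by_cases hodd : w.length % 2 = 1
  · exact Vale.Agent.P269.G2.vir_odd h1 hm 1 d w hodd
  · refine Vale.Agent.P269.G2.vir_weight hF 1 d w ?_
    obtain ⟨n, hwn⟩ : ∃ n, w.length = 2 * n := ⟨w.length / 2, by omega⟩
    have hn1 : 1 ≤ n := by
      have := List.length_pos_iff.2 hw0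
      omega
    intro h
    refine hn n d hn1 (by omega) hd ?_
    rw [hwn] at h
    push_cast at h
    linarith

/-- **Even dimension, excess at least three**: the part of degree `d` of the constraints of
genus one, if it holds without primitive insertions up to the degree `d`, holds with `N`
primitive insertions if no number `L_1` with at most `N` primitive insertions has a degree at
most `d`. -/
theorem vir_even_dims (hF : IsGW X F) (he : Even X.dim) (h1 : IsGenusOneFull F)
    (hX : 3 ≤ X.dim) (hi : index X ≠ 0) (hm : 3 ≤ excess X) (K d : ℕ) (L : List (Ins X))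
    (h0 : ∀ k e (M : List (Fin (X.dim + 1))), e ≤ d →
      virasoro X F (k + 1) 1 e (M.map (hpow X)) = 0)
    (hn : ∀ n e : ℕ, 1 ≤ n → 2 * n ≤ (L.countP fun x => x.1.isRight) → e ≤ d →
      index X * e ≠ 1 + n * ((X.dim : ℤ) - 2)) :
    virasoro X F K 1 d L = 0 :=
  vir_even_graded hF he h1 hX hi d h0 (L.countP fun x => x.1.isRight)
    (fun w hw0 hw e he => number_graded hF h1 hm _ d hn w hw0 hw e he) K d le_rfl L le_rfl

/-- the degrees of the numbers `L_1` with primitive insertions are at least two -/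
theorem no_low (X : CompleteIntersection) (hi : 2 ≤ index X) (hm : 3 ≤ excess X) (n e : ℕ)
    (hn : 1 ≤ n) (he : e ≤ n) : index X * e ≠ 1 + n * ((X.dim : ℤ) - 2) := by
  have hid := Vale.Agent.P269.G1.index_eq X
  have h1 : (e : ℤ) ≤ n := by exact_mod_cast he
  have h2 : (1 : ℤ) ≤ n := by exact_mod_cast hn
  have h3 : (3 : ℤ) ≤ excess X := by exact_mod_cast hm
  have h4 : index X ≤ (X.dim : ℤ) - 2 := by rw [hid]; linarith
  intro h
  have h5 : index X * e ≤ index X * n := mul_le_mul_of_nonneg_left h1 (by linarith)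
  have h6 : index X * n ≤ ((X.dim : ℤ) - 2) * n := mul_le_mul_of_nonneg_right h4 (by linarith)
  nlinarith

end Vale.Agent.P269.LN
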