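import Vale.Agent.P269.LN.H598.StrDCore
import Vale.Agent.P269.LN.H660.StrPow

/-!
# [A6]: `E^{ν-b} d(E^b)` at the origin
-/

set_option autoImplicit false

namespace Vale.Agent.P269.LN.H598

open Vale.Agent.P269.CI
open Vale.Agent.P269.G1

variable {X : CompleteIntersection} {F : ℕ → ℕ → List (Ins X) → ℂ}

variable (hF : IsGW X F) (h1 : IsGenusOne F)

/-- **[A6]** `E^{ν-b} d(E^b)` at the origin (`A1`, `A5`, `str 1 = χ`) -/
theorem str_d (ν : ℕ) (hν : index X = ν) (h2 : 2 ≤ ν) (hr : ν + 1 ≤ X.dim) (l : ℕ → ℂ)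
    (hl : IsL F ν l) (b : ℕ) (hb : b ≤ ν) :
    PowerSeries.coeff 1 (H276.ev0 X (strO hF h1 (CC hF h1
      (Eu hF h1 ^ (ν - b) * dd hF h1 (Eu hF h1 ^ b))))) =
      (b : ℂ) * ((ν : ℂ) ^ (ν + 1) * ∑ n ∈ Finset.range (X.dim + 1), l n) -
        (if b = ν then (ν : ℂ) ^ (ν + 1) * l (ν - 1) * (deg X * chernCoeff X X.dim) else 0) :=
  str_d_core hF h1 ν hν h2 l hl (H660.str_pow hF h1 ν hν h2 l hl) b hb

end Vale.Agent.P269.LN.H598
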