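import Vale.Agent.P269.LN.H660.Trace
import Vale.Agent.P269.G1I.Oper
import Vale.Agent.P269.H861.LibgoberWood

/-!
# [A6]: `E^{ν-b} d(E^b)` at the origin
-/

set_option autoImplicit false

namespace Vale.Agent.P269.LN.H598

open Vale.Agent.P269.CI
open Vale.Agent.P269.G1

variable {X : CompleteIntersection} {F : ℕ → ℕ → List (Ins X) → ℂ}

theorem euler_card : ((X.dim : ℂ) + 1) + (-1) ^ X.dim * (Fintype.card X.Prim : ℂ) =
    deg X * chernCoeff X X.dim := by
  rw [← H861.euler]
  unfold CI.str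
  rw [Fintype.sum_sum_type]
  congr 1
  · simp [par, CI.sgn]
  · simp only [mul_one]
    rw [Finset.sum_congr rfl (g := fun _ => ((-1 : ℂ)) ^ X.dim), Finset.sum_const,
      Finset.card_univ, nsmul_eq_mul, mul_comm]
    intro a _
    unfold CI.sgn par
    rcases Nat.even_or_odd X.dim with h | h
    · have h1 := Nat.even_iff.mp h
      rw [h.neg_one_pow]
      simp [h1]
    · have h1 := Nat.odd_iff.mp h
      rw [h.neg_one_pow]
      simp [h1]

variable (hF : IsGW X F) (h1 : IsGenusOne F)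

/-- the supertrace of the identity -/
theorem str_one : strO hF h1 1 = cst X (deg X * chernCoeff X X.dim) := by
  have : Module.Finite (RR X) (AA hF h1) := Module.Finite.of_basis (QA.bas (consts hF h1))
  have : Module.Free (RR X) (AA hF h1) := Module.Free.of_basis (QA.bas (consts hF h1))
  change LinearMap.trace (RR X) (AA hF h1) 1 + cst X ((-1) ^ X.dim) * ∑ v : X.Prim, (1 : RR X) = _
  rw [LinearMap.trace_one, Module.finrank_eq_card_basis (QA.bas (consts hF h1)),
    Fintype.card_fin, ← euler_card]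
  unfold cst
  simp only [map_add, map_mul, map_natCast, map_one, Finset.sum_const, Finset.card_univ,
    nsmul_eq_mul, mul_one, Nat.cast_add, Nat.cast_one]

/-- elements which vanish at the origin modulo `q ^ 2` -/
def Small (f : RR X) : Prop :=
  PowerSeries.coeff 0 (H276.ev0 X f) = 0 ∧ PowerSeries.coeff 1 (H276.ev0 X f) = 0

theorem Small.mul_left {f : RR X} (h : Small f) (g : RR X) : Small (g * f) := by
  constructor
  · rw [map_mul, H660.coeff_zero_mul', h.1, mul_zero]
  · rw [map_mul, H660.coeff_one_mul', h.1, h.2, mul_zero, mul_zero, add_zero]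

theorem Small.mul_right {f : RR X} (h : Small f) (g : RR X) : Small (f * g) := by
  rw [mul_comm]
  exact h.mul_left g

theorem Small.sum {ι : Type*} (s : Finset ι) (f : ι → RR X) (h : ∀ i ∈ s, Small (f i)) :
    Small (∑ i ∈ s, f i) := by
  constructor
  · rw [map_sum, map_sum]
    exact Finset.sum_eq_zero fun i hi => (h i hi).1
  · rw [map_sum, map_sum]
    exact Finset.sum_eq_zero fun i hi => (h i hi).2

theorem small_mul (z y : AA hF h1) (hy : ∀ k, Small (y k)) (k : Fin (X.dim + 1)) :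
    Small ((z * y : AA hF h1) k) := by
  rw [QA.mul_def]
  exact Small.sum _ _ fun i _ => Small.sum _ _ fun j _ => ((hy j).mul_left (z i)).mul_right _

theorem eq_sum_bas (y : AA hF h1) : y = ∑ k, y k • QA.bas (consts hF h1) k := by
  conv_lhs => rw [← (QA.bas (consts hF h1)).sum_repr y]
  rfl

theorem bas_zero : QA.bas (consts hF h1) 0 = (1 : AA hF h1) := by
  funext k
  rw [QA.bas_apply, QA.one_def]

theorem str_CC (y : AA hF h1) : strO hF h1 (CC hF h1 y) =
    ∑ k, y k * strO hF h1 (CC hF h1 (QA.bas (consts hF h1) k)) := by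
  conv_lhs => rw [eq_sum_bas hF h1 y]
  rw [map_sum, map_sum]
  exact Finset.sum_congr rfl fun k _ => by rw [map_smul, map_smul, smul_eq_mul]

/-- the supertrace at the origin of an element which vanishes there but for the unit -/
theorem str_low (y : AA hF h1) (h0 : PowerSeries.coeff 0 (H276.ev0 X (y 0)) = 0)
    (hy : ∀ k, k ≠ 0 → Small (y k)) :
    PowerSeries.coeff 1 (H276.ev0 X (strO hF h1 (CC hF h1 y))) =
      PowerSeries.coeff 1 (H276.ev0 X (y 0)) * (deg X * chernCoeff X X.dim) := by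
  rw [str_CC, map_sum, map_sum, Finset.sum_eq_single 0]
  · rw [bas_zero, map_one, str_one, map_mul, H660.coeff_one_mul', h0, zero_mul, zero_add]
    congr 1
    unfold cst
    rw [MvPowerSeries.constantCoeff_C, PowerSeries.coeff_C, if_pos rfl]
  · intro k _ hk
    exact ((hy k hk).mul_right _).2
  · simp

theorem ev0_dd (y : AA hF h1) (k : Fin (X.dim + 1)) :
    H276.ev0 X ((dd hF h1 y : AA hF h1) k) = PowerSeries.C ((k : ℕ) : ℂ) * H276.ev0 X (y k) := by
  change H276.ev0 X (((k : ℕ) : RR X) * y k) = _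
  rw [map_mul, map_natCast, map_natCast]

/-- the difference of `d(E^b)` and `b E^b` -/
noncomputable def yb (b : ℕ) : AA hF h1 :=
  dd hF h1 (Eu hF h1 ^ b) - (b : RR X) • Eu hF h1 ^ b

theorem ev0_yb (b : ℕ) (k : Fin (X.dim + 1)) : H276.ev0 X (yb hF h1 b k) =
    PowerSeries.C (((k : ℕ) : ℂ) - b) * (PowerSeries.C ((index X : ℂ) ^ b) *
      ((qmul F) ^ b) 0 k) := by
  rw [← H276.ev0_pow hF h1]
  change H276.ev0 X ((dd hF h1 (Eu hF h1 ^ b) : AA hF h1) k - (b : RR X) *
    (Eu hF h1 ^ b : AA hF h1) k) = _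
  rw [map_sub, ev0_dd, map_mul, map_natCast, map_sub]
  simp only [map_natCast]
  ring

theorem coeff_yb (ν : ℕ) (hν : index X = ν) (h2 : 2 ≤ ν) (l : ℕ → ℂ) (hl : IsL F ν l) (b : ℕ)
    (k : Fin (X.dim + 1)) : PowerSeries.coeff 0 (H276.ev0 X (yb hF h1 b k)) = 0 ∧
    PowerSeries.coeff 1 (H276.ev0 X (yb hF h1 b k)) =
      if (k : ℕ) + ν = b then (((k : ℕ) : ℂ) - b) * ((ν : ℂ) ^ b * ∑ t ∈ Finset.range b, l t)
        else 0 := by
  obtain ⟨c0, c1⟩ := H660.coeff_pow hF ν hν h2 l hl b 0 k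
  rw [ev0_yb]
  simp only [PowerSeries.coeff_C_mul, c0, c1, hν, Int.cast_natCast, Fin.val_zero, zero_add]
  constructor
  · by_cases h : (k : ℕ) = b
    · rw [h, sub_self, zero_mul]
    · rw [if_neg h, mul_zero, mul_zero]
  · by_cases h : (k : ℕ) + ν = b
    · rw [if_pos h, if_pos h]
    · rw [if_neg h, if_neg h, mul_zero, mul_zero]

/-- **[A6]** from A5 -/
theorem str_d_core (ν : ℕ) (hν : index X = ν) (h2 : 2 ≤ ν) (l : ℕ → ℂ)
    (hl : IsL F ν l)
    (h5 : PowerSeries.coeff 1 (H276.ev0 X (strO hF h1 (CC hF h1 (Eu hF h1 ^ ν)))) =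
      (ν : ℂ) ^ (ν + 1) * ∑ n ∈ Finset.range (X.dim + 1), l n) (b : ℕ) (hb : b ≤ ν) :
    PowerSeries.coeff 1 (H276.ev0 X (strO hF h1 (CC hF h1
      (Eu hF h1 ^ (ν - b) * dd hF h1 (Eu hF h1 ^ b))))) =
      (b : ℂ) * ((ν : ℂ) ^ (ν + 1) * ∑ n ∈ Finset.range (X.dim + 1), l n) -
        (if b = ν then (ν : ℂ) ^ (ν + 1) * l (ν - 1) * (deg X * chernCoeff X X.dim) else 0) := by
  have e1 : Eu hF h1 ^ (ν - b) * dd hF h1 (Eu hF h1 ^ b) =
      (b : RR X) • Eu hF h1 ^ ν + Eu hF h1 ^ (ν - b) * yb hF h1 b := by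
    unfold yb
    rw [mul_sub, mul_smul_comm, ← pow_add, Nat.sub_add_cancel hb]
    abel
  have e2 : PowerSeries.coeff 1 (H276.ev0 X (strO hF h1 (CC hF h1
      ((b : RR X) • Eu hF h1 ^ ν)))) =
      (b : ℂ) * ((ν : ℂ) ^ (ν + 1) * ∑ n ∈ Finset.range (X.dim + 1), l n) := by
    rw [map_smul, map_smul, smul_eq_mul, map_mul, map_natCast, ← h5]
    have : (b : PowerSeries ℂ) = PowerSeries.C (b : ℂ) := by rw [map_natCast]
    rw [this, PowerSeries.coeff_C_mul]
  have e3 : PowerSeries.coeff 1 (H276.ev0 X (strO hF h1 (CC hF h1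
      (Eu hF h1 ^ (ν - b) * yb hF h1 b)))) =
      - (if b = ν then (ν : ℂ) ^ (ν + 1) * l (ν - 1) * (deg X * chernCoeff X X.dim) else 0) := by
    by_cases h : b = ν
    · subst h
      rw [if_pos rfl, Nat.sub_self, pow_zero, one_mul, str_low hF h1 _ (coeff_yb hF h1 b hν h2 l hl b 0).1]
      · rw [(coeff_yb hF h1 b hν h2 l hl b 0).2, if_pos (by simp)]
        have hs : ∑ t ∈ Finset.range b, l t = l (b - 1) := by
          obtain ⟨m, rfl⟩ : ∃ m, b = m + 1 := ⟨b - 1, by omega⟩
          rw [Finset.sum_range_succ, Finset.sum_eq_zero, zero_add, Nat.add_sub_cancel]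
          intro t ht
          exact hl.small t (by have := Finset.mem_range.mp ht; omega)
        rw [hs]
        simp only [Fin.val_zero, Nat.cast_zero]
        ring
      · intro k hk
        have hk' : ¬ ((k : ℕ) + b = b) := by
          intro h'
          exact hk (Fin.ext (by simpa using h'))
        exact ⟨(coeff_yb hF h1 b hν h2 l hl b k).1, by
          rw [(coeff_yb hF h1 b hν h2 l hl b k).2, if_neg hk']⟩
    · rw [if_neg h, neg_zero]
      have hy : ∀ k, Small (yb hF h1 b k) := fun k =>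
        ⟨(coeff_yb hF h1 ν hν h2 l hl b k).1, by
          rw [(coeff_yb hF h1 ν hν h2 l hl b k).2, if_neg (by omega)]⟩
      have hz := small_mul hF h1 (Eu hF h1 ^ (ν - b)) (yb hF h1 b) hy
      rw [str_low hF h1 _ (hz 0).1 fun k _ => hz k, (hz 0).2, zero_mul]
  rw [e1, map_add, map_add, map_add, map_add, e2, e3]
  ring

end Vale.Agent.P269.LN.H598
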